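import Vale.Agent.P134.R2.H561.Rig
import Vale.Agent.P134.H775.K

/-! P134Y: top interfaces of the proof of De Giorgi's conjecture for `n ≤ 8`.
All statements are about functions on `Fin N → ℝ` (conventions of the library `P134`). -/

set_option linter.all false

open MeasureTheory Filter Topology

namespace Vale.Agent.P134Y

open Vale.Agent.P134 Vale.Agent.P134.SM

variable {N : ℕ}

/-- Stable solutions with `|u| < 1` (test functions `C¹` with compact support). -/
structure St (u : (Fin N → ℝ) → ℝ) : Prop extends Sol u where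
  lt : ∀ x, |u x| < 1
  stb : H775.Stb fun x => 3 * u x ^ 2 - 1

/-- Output of block (Ib): decay of the Modica deficit `defi = 2 W(u) - |∇u|²` away from the set
where it is not small. -/
def RATE (N : ℕ) : Prop := ∃ δ C : ℝ, 0 < δ ∧ 0 < C ∧ ∀ u : (Fin N → ℝ) → ℝ, St u →
  ∀ (x : Fin N → ℝ) (d : ℝ), 0 < d → (∀ y ∈ eb x d, defi u y ≤ δ) → defi u x ≤ C / d ^ 2

/-- Output of block (c): stable solutions have no deficit. -/
def RIG (N : ℕ) : Prop := ∀ u : (Fin N → ℝ) → ℝ, St u → ∀ x, defi u x = 0

/-- Output of block (d): monotone solutions on `ℝ^(m+4)` with limits `±1` have no deficit. -/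
def SAV (m : ℕ) : Prop := ∀ (q : Fin (m + 4)) (u : (Fin (m + 4) → ℝ) → ℝ), R2.H561.Mo q u →
  ∀ x, defi u x = 0

end Vale.Agent.P134Y
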