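import Vale.Agent.P134Y.Top
import Vale.Agent.P134S.All
import Vale.Agent.P134B.Rate7
import Vale.Agent.P134C.RIG

/-!
# P134Y: the conjecture of De Giorgi for `n ≤ 8` from the absence of the bad set in `ℝ⁷`
-/

open scoped InnerProductSpace Laplacian

namespace Vale.Agent.P134Y

theorem rig7_of (h : P134C.NOB) : RIG 7 := P134C.rig P134B.kk' h P134B.rate7

theorem deg_of (h : P134C.NOB) (n : ℕ) (hn : n ≤ 8) (u : EuclideanSpace ℝ (Fin n) → ℝ)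
    (hu : ContDiff ℝ 2 u) (heq : ∀ x, Δ u x = u x ^ 3 - u x) (hb : ∃ M : ℝ, ∀ x, |u x| ≤ M)
    (a : EuclideanSpace ℝ (Fin n)) (ha : ∀ x, 0 < fderiv ℝ u x a) :
    ∃ (e : EuclideanSpace ℝ (Fin n)) (c : ℝ), ‖e‖ = 1 ∧ 0 < ⟪e, a⟫_ℝ ∧
      ∀ x, u x = Real.tanh ((⟪e, x⟫_ℝ - c) / √2) :=
  top 4 (rig7_of h) P134S.sav4 n hn u hu heq hb a ha

end Vale.Agent.P134Y
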