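import Vale.Agent.P134E.Fin0

/-! P134Y: the packing of the gaps in integral form. -/

set_option linter.unusedVariables false

open MeasureTheory Metric Filter Topology Set
open Vale.Agent.P366.Stmt (E)

noncomputable section

namespace Vale.Agent.P134Y

open Vale.Agent.P134B Vale.Agent.P134E

theorem dyadF {g : ℝ} {J : ℕ} (h1 : 1 ≤ g) (h2 : g < 32 ^ J) : g ^ (4 / 5 : ℝ) ≤
    ∑ j ∈ Finset.range J, if (32 : ℝ) ^ j ≤ g then (16 : ℝ) ^ (j + 1) else 0 := by
  obtain ⟨j, j1, j2⟩ := exists_nat_pow_near h1 (by norm_num : (1 : ℝ) < 32)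
  have j3 : j < J := (pow_lt_pow_iff_right₀ (by norm_num : (1 : ℝ) < 32)).1 (j1.trans_lt h2)
  refine le_trans ?_ (Finset.single_le_sum (f := fun j => if (32 : ℝ) ^ j ≤ g then
    (16 : ℝ) ^ (j + 1) else 0) (fun j _ => by split_ifs <;> positivity) (Finset.mem_range.2 j3))
  rw [if_pos j1]
  refine (Real.rpow_le_rpow (by linarith) j2.le (by norm_num)).trans_eq ?_
  rw [← Real.rpow_natCast, ← Real.rpow_mul (by norm_num), mul_comm, Real.rpow_mul (by norm_num),
    Real.rpow_natCast, show (32 : ℝ) = 2 ^ (5 : ℝ) by norm_num, ← Real.rpow_mul zero_le_two]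
  norm_num

theorem pkiF : rPKI := by
  intro greg pkg m C
  obtain ⟨K, K0, β, β0, h⟩ := pkg m C
  refine ⟨32 * K, by positivity, β, β0, fun u ε G R A z hu hε G2 GR hA hT => ?_⟩
  obtain ⟨gm, gg⟩ := greg _ C G u hu G2
  obtain ⟨J, hJ⟩ := pow_unbounded_of_one_lt G (by norm_num : (1 : ℝ) < 32)
  have : IsFiniteMeasure (volume.restrict (A ∩ ball z R)) := isFiniteMeasure_restrict.2
    ((measure_mono inter_subset_right).trans_lt measure_ball_lt_top).ne
  have ms : ∀ j : ℕ, MeasurableSet {y | (32 : ℝ) ^ j ≤ gp u G y} := fun j =>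
    measurableSet_le measurable_const gm
  have i1 : IntegrableOn (fun y => gp u G y ^ (4 / 5 : ℝ)) (A ∩ ball z R) :=
    Integrable.of_bound (gm.pow_const _).aestronglyMeasurable (G ^ (4 / 5 : ℝ))
      (.of_forall fun y => by
        have g0 : 0 ≤ gp u G y := by linarith [(gg y).1]
        rw [Real.norm_of_nonneg (Real.rpow_nonneg g0 _)]
        exact Real.rpow_le_rpow g0 (gg y).2.1 (by norm_num))
  have i2 : ∀ j ∈ Finset.range J, Integrable ({y | (32 : ℝ) ^ j ≤ gp u G y}.indicator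
      fun _ => (16 : ℝ) ^ (j + 1)) (volume.restrict (A ∩ ball z R)) := fun j _ =>
    (integrable_const _).indicator (ms j)
  refine ⟨i1, (integral_mono i1 (integrable_finsetSum _ i2) fun y => ?_).trans ?_⟩
  · simpa only [indicator, mem_ofPred_eq] using
      dyadF (by linarith [(gg y).1]) ((gg y).2.1.trans_lt hJ)
  rw [integral_finsetSum _ i2]
  have R0 : 0 ≤ K * R ^ (m + 1) := mul_nonneg K0 (pow_nonneg (by linarith) _)
  refine (Finset.sum_le_sum (g := fun j => 16 * (K * R ^ (m + 1)) * (1 / 2) ^ j)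
    fun j _ => ?_).trans ?_
  · rw [integral_indicator_const _ (ms j), measureReal_restrict_apply (ms j), smul_eq_mul]
    have h1 := h u ε G R (32 ^ j) ({y | (32 : ℝ) ^ j ≤ gp u G y} ∩ A) z hu hε GR (by positivity)
      ((ms j).inter hA) fun y hy => ⟨hT y hy.2, hy.1⟩
    have h2 := ENNReal.toReal_le_of_le_ofReal (by positivity) h1
    rw [inter_assoc, le_div_iff₀ (by positivity)] at h2
    have := mul_le_mul_of_nonneg_right h2 (show (0 : ℝ) ≤ 16 * (1 / 2) ^ j by positivity)
    rw [show (16 : ℝ) ^ (j + 1) = 32 ^ j * (16 * (1 / 2) ^ j) by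
      rw [mul_left_comm, ← mul_pow, pow_succ']; norm_num, measureReal_def]
    linarith
  · rw [← Finset.mul_sum]
    linarith [mul_le_mul_of_nonneg_left (sum_geometric_two_le J)
      (mul_nonneg (by norm_num : (0 : ℝ) ≤ 16) R0)]

end Vale.Agent.P134Y
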