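import Vale.Agent.P134Y.GlueF
import Vale.Agent.P134Y.PkiF
import Vale.Agent.P134E.CVPF
import Vale.Agent.P134C.THK3

/-! P134Y: rigidity of the stable solutions in dimension seven. -/

namespace Vale.Agent.P134Y

theorem rig7 : RIG 7 := rig7_ofF P134C.thk3 pkiF P134E.cvp

end Vale.Agent.P134Y
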