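import Vale.Agent.P134B.Toda6
import Vale.Agent.P134E.ALG
import Vale.Agent.P134E.ALR
import Vale.Agent.P134E.AR
import Vale.Agent.P134E.CVQ
import Vale.Agent.P134E.FARC
import Vale.Agent.P134E.GN0
import Vale.Agent.P134E.GN1
import Vale.Agent.P134E.Greg
import Vale.Agent.P134E.JT
import Vale.Agent.P134E.LOW
import Vale.Agent.P134E.PB
import Vale.Agent.P134E.PRG
import Vale.Agent.P134E.PRK
import Vale.Agent.P134E.PRS
import Vale.Agent.P134E.PS
import Vale.Agent.P134E.Par2
import Vale.Agent.P134E.RAY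
import Vale.Agent.P134E.RAY0
import Vale.Agent.P134E.RAY1
import Vale.Agent.P134E.RAYA
import Vale.Agent.P134E.RAYF
import Vale.Agent.P134E.RAYM
import Vale.Agent.P134E.REGW
import Vale.Agent.P134E.RG1
import Vale.Agent.P134E.RG2
import Vale.Agent.P134E.RG3
import Vale.Agent.P134E.SBA
import Vale.Agent.P134E.SBC
import Vale.Agent.P134E.SBD
import Vale.Agent.P134E.SLAB
import Vale.Agent.P134E.STA
import Vale.Agent.P134E.STB
import Vale.Agent.P134E.STI
import Vale.Agent.P134E.TGC

/-! P134Y: the rows of the test in the tube without hypotheses. -/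

namespace Vale.Agent.P134Y.G0

open Vale.Agent.P134B Vale.Agent.P134E

theorem greg' : GREG := greg tgc
theorem par2' : PAR2 := par2 gr gd
theorem slab' : P134E.SLAB := slab tgc greg' (foot seg) gr gd par2'
theorem pb' : PB := pb tgc
theorem ar' : AR := ar tgc
theorem jt' : JT := jt tgc pb' (ps_ tgc jac)
theorem sti' : STI := sti tgc divt pb'
theorem raya' : RAYA := raya tgc (alg tgc)
theorem ray0' : RAY0 := ray0 tgc seg
theorem ray1' : RAY1 := ray1 tgc seg (foot seg) greg' par2' ray0'
theorem low' : LOW := low tgc (foot seg) tl' zt greg' ray0' ray1'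
theorem raym' : RAYM := raym tgc greg' slab' ray0' ray1' low'
theorem rayf' : RAYF := rayf tgc sym seg tl' zt ln0 ray0' ray1'
theorem ray' : RAY := ray_ raya' ray0' ray1' raym' rayf'
theorem regw' : REGW := regw tgc greg' col
theorem gn0' : GN0 := gn0 cvq
theorem gn1' : GN1 := gn1 cvq
theorem rg1' : RG1 := rg1 tgc greg' cvq gn0' gn1' regw'
theorem rg2' : RG2 := rg2 tgc greg' regw'
theorem rg3' : RG3 := rg3 tgc greg' regw'
theorem sbb_of (h : rSBB) : SBB := h tgc cvq gn0' gn1' col (farc col) regw'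

theorem close {P : Prop} (s : rSBB) (h : TGC → PB → JT → STI → GREG → PRG → PRK → CVQ → GN0 →
    GN1 → RAY → REGW → RG1 → RG2 → RG3 → STA → STB → SBC → SBA → SBB → SBD → ALR → P) : P :=
  h tgc pb' jt' sti' greg' prg prk cvq gn0' gn1' ray' regw' rg1' rg2' rg3' (sta tgc) (stb tgc)
    (sbc tgc gn0') (sba tgc gn0' gn1' regw') (sbb_of s) (sbd tgc cvq regw') alr

end Vale.Agent.P134Y.G0
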