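import Vale.Agent.P134Y.Top
import Vale.Agent.P134B.Rate7
import Vale.Agent.P134S.All
import Vale.Agent.P134C.Nob2
import Vale.Agent.P134C.RIG

/-! P134Y: everything except the two estimates in the band. -/

namespace Vale.Agent.P134Y

theorem rig7_of (thk : P134C.rTHK) (te : P134C.TE) : RIG 7 :=
  P134C.rig P134B.kk' (P134C.nob_of_te
    (thk P134W.mu_all P134B.sym P134C.Nob2.dt' P134R.qg P134C.dir_all) te) P134B.rate7

end Vale.Agent.P134Y
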