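import Vale.Agent.P134Y.Glue0
import Vale.Agent.P134Y.Pre2
import Vale.Agent.P134C.Ker
import Vale.Agent.P134E.SBB
import Vale.Agent.P134E.TE1
import Vale.Agent.P134E.TEF
import Vale.Agent.P134E.DST
import Vale.Agent.P134E.THN
import Vale.Agent.P134E.RET
import Vale.Agent.P134E.NRP
import Vale.Agent.P134E.COV
import Vale.Agent.P134E.COVI

/-! P134Y: the tube estimate from the packing bound and the cost bound. -/

namespace Vale.Agent.P134Y

open Vale.Agent.P134B Vale.Agent.P134E G0

theorem thn' : THN := thn sym cvq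

theorem covi' : COVI :=
  covi tgc sym ar' thn' P134C.cnt
    (cov tgc sym greg' ray' raya' ray0' rayf' low' regw' thn' (ret col) (nrp seg))

theorem te_of (pck : rPCK) (cost : rCOST) : P134C.TE :=
  tef prs dst thn' (close sbb te1)
    (cost tgc greg' ray0' ray1' low' thn' (pck tgc greg' (foot seg) slab') P134C.cnt P134C.cnr)
    covi'

theorem rig7_of' (thk : P134C.rTHK) (pck : rPCK) (cost : rCOST) : RIG 7 :=
  rig7_of thk (te_of pck cost)

end Vale.Agent.P134Y
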