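import Vale.Agent.P134Y.Glue0
import Vale.Agent.P134Y.Pre2
import Vale.Agent.P134C.Ker
import Vale.Agent.P134C.SLO
import Vale.Agent.P134E.SBB
import Vale.Agent.P134E.TE0
import Vale.Agent.P134E.TE
import Vale.Agent.P134E.RD
import Vale.Agent.P134E.CX
import Vale.Agent.P134E.PKG
import Vale.Agent.P134E.UPD
import Vale.Agent.P134E.COSTF
import Vale.Agent.P134E.FEET
import Vale.Agent.P134E.COVA

/-! P134Y: the tube estimate, second route. -/

namespace Vale.Agent.P134Y

open Vale.Agent.P134B Vale.Agent.P134E G0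

theorem te_ofF (pki : rPKI) (cvp : rCVP) : P134C.TE :=
  te sym cvq prs (close sbb te0) P134C.cnt rd cx
    (costF greg' P134C.cnt P134C.cnr cx (pki greg' (pkg tgc greg' (foot seg) par2' slab'))
      (upd low'))
    (feet seg cvq) (cvp sym greg' ray' regw' cx (upd low') (P134C.slo P134C.Nob2.tly'))
    (cova tgc ar')

theorem rig7_ofF (thk : P134C.rTHK) (pki : rPKI) (cvp : rCVP) : RIG 7 :=
  rig7_of thk (te_ofF pki cvp)

end Vale.Agent.P134Y

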