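import Vale.Agent.P134Y.Defs
import Vale.Agent.P134.H765.Stab

/-! P134Y: elementary facts on the class `St` of stable solutions. -/

set_option linter.all false

open MeasureTheory Filter Topology

namespace Vale.Agent.P134Y

open Vale.Agent.P134 Vale.Agent.P134.SM
open Vale.Agent.P134.H491 (HypN)
open Vale.Agent.P134.H787 (rot LI)
open Vale.Agent.P134.R2.H561 (SH)

variable {N : ℕ} {u U : (Fin N → ℝ) → ℝ}

/-- the universal constant of the Riccati fields of stable solutions. -/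
noncomputable def cS (N : ℕ) : ℝ := N * H283.cH N (H765.cF N 2)

lemma vv_cont (hu : Sol u) : Continuous fun x => 3 * u x ^ 2 - 1 :=
  (continuous_const.mul (hu.c2.continuous.pow 2)).sub continuous_const

theorem hyp_of_stb (hu : Sol u) (h : H775.Stb fun x => 3 * u x ^ 2 - 1) :
    HypN N (cS N) fun x => 3 * u x ^ 2 - 1 :=
  H765.hypN_of_stable hu fun η hη => h η (hη.1.of_le (by exact_mod_cast le_top)) hη.2

theorem St.hyp (h : St u) : HypN N (cS N) fun x => 3 * u x ^ 2 - 1 := hyp_of_stb h.toSol h.stb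

theorem St.sh (h : St u) : SH u := ⟨h.toSol, _, h.hyp⟩

theorem st_of_sh (h : SH u) (hlt : ∀ x, |u x| < 1) : St u :=
  ⟨h.1, hlt, H775.stb_of_hypN (vv_cont h.1) h.2.choose_spec⟩

lemma lt_of_psi {x : Fin N → ℝ} (h : 0 < psi u x) : |u x| < 1 := by
  unfold psi at h
  rw [← sq_lt_one_iff_abs_lt_one]
  linarith

lemma St.psi_pos (h : St u) (x : Fin N → ℝ) : 0 < psi u x := by
  have h1 := (sq_lt_one_iff_abs_lt_one _).mpr (h.lt x)
  unfold psi
  linarith

/-- a solution of the class `SH` is `±1` (no deficit) or belongs to `St`. -/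
theorem sh_cases (h : SH u) : (∀ x, psi u x = 0) ∨ St u := by
  rcases h.1.psi_dichotomy with h1 | h1
  · exact Or.inl h1
  · exact Or.inr (st_of_sh h fun x => lt_of_psi (h1 x))

lemma defi_of_psi (hu : Sol u) {x : Fin N → ℝ} (h : psi u x = 0) : defi u x = 0 := by
  refine le_antisymm ?_ (hu.defi_nonneg x)
  unfold defi
  rw [h]
  have : 0 ≤ ∑ i, pd i u x ^ 2 := Finset.sum_nonneg fun _ _ => sq_nonneg _
  linarith

theorem St.translate (h : St u) (v : Fin N → ℝ) : St fun x => u (x + v) :=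
  st_of_sh ⟨h.toSol.shift v, _, h.hyp.translate v⟩ fun _ => h.lt _

theorem St.neg (h : St u) : St fun x => -u x :=
  ⟨h.toSol.neg, fun x => by rw [abs_neg]; exact h.lt x, by simpa using h.stb⟩

theorem St.rot (h : St u) (L : LI N) : St fun x => u (H787.rot L x) :=
  st_of_sh (h.sh.rot L) fun _ => h.lt _

/-- monotone solutions are stable. -/
theorem st_of_mono (hu : Sol u) {q : Fin N} (hq : ∀ x, 0 < pd q u x) : St u := by
  rcases sh_cases ⟨hu, _, HypN.of_mono hu hq⟩ with h | h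
  · exfalso
    have h1 := defi_of_psi hu (h 0)
    unfold defi at h1
    rw [h 0] at h1
    have h2 : pd q u 0 ^ 2 ≤ ∑ i, pd i u 0 ^ 2 :=
      Finset.single_le_sum (f := fun i => pd i u 0 ^ 2) (fun i _ => sq_nonneg _)
        (Finset.mem_univ q)
    nlinarith [hq 0]
  · exact h

/-- pointwise limits along any filter. -/
theorem St.sh_of_tendsto {ι : Type*} {L : Filter ι} [L.NeBot] {F : ι → (Fin N → ℝ) → ℝ}
    (hF : ∀ t, St (F t)) (hU : Sol U) (hlim : ∀ x, Tendsto (fun t => F t x) L (𝓝 (U x))) :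
    SH U :=
  ⟨hU, _, HypN.of_tendsto (fun t => (hF t).toSol) hU hlim fun t => (hF t).hyp⟩

theorem St.of_tendsto {ι : Type*} {L : Filter ι} [L.NeBot] {F : ι → (Fin N → ℝ) → ℝ}
    (hF : ∀ t, St (F t)) (hU : Sol U) (hlim : ∀ x, Tendsto (fun t => F t x) L (𝓝 (U x))) :
    (∀ x, psi U x = 0) ∨ St U :=
  sh_cases (St.sh_of_tendsto hF hU hlim)

/-- sequences: the limit is a solution, first and second derivatives converge. -/
theorem St.of_seq {F : ℕ → (Fin N → ℝ) → ℝ} (hF : ∀ t, St (F t))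
    (hlim : ∀ x, Tendsto (fun t => F t x) atTop (𝓝 (U x))) :
    ((∀ x, psi U x = 0) ∨ St U) ∧ Sol U ∧
      (∀ x i, Tendsto (fun t => pd i (F t) x) atTop (𝓝 (pd i U x))) ∧
      ∀ x i j, Tendsto (fun t => pd i (pd j (F t)) x) atTop (𝓝 (pd i (pd j U) x)) := by
  obtain ⟨h1, h2, h3⟩ := Sol.of_tendsto (fun t => (hF t).toSol) hlim
  exact ⟨St.of_tendsto hF h1 hlim, h1, h2, h3⟩

/-- compactness: a subsequence converges to a solution which is `±1` or stable. -/
theorem St.exists_subseq {F : ℕ → (Fin N → ℝ) → ℝ} (hF : ∀ t, St (F t)) :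
    ∃ φ : ℕ → ℕ, StrictMono φ ∧ ∃ U : (Fin N → ℝ) → ℝ,
      (∀ x, Tendsto (fun k => F (φ k) x) atTop (𝓝 (U x))) ∧
      ((∀ x, psi U x = 0) ∨ St U) ∧ Sol U ∧
      (∀ x i, Tendsto (fun k => pd i (F (φ k)) x) atTop (𝓝 (pd i U x))) ∧
      ∀ x i j, Tendsto (fun k => pd i (pd j (F (φ k))) x) atTop (𝓝 (pd i (pd j U) x)) := by
  obtain ⟨φ, hφ, U, hU⟩ := P134.exists_subseq F fun k => (hF k).toSol
  exact ⟨φ, hφ, U, hU, St.of_seq (F := fun k => F (φ k)) (fun k => hF _) hU⟩

theorem RIG.sh (hR : RIG N) (h : SH u) (x : Fin N → ℝ) : defi u x = 0 := by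
  rcases sh_cases h with h1 | h1
  · exact defi_of_psi h.1 (h1 x)
  · exact hR u h1 x

end Vale.Agent.P134Y
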