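import Vale.Agent.P134Y.St
import Vale.Agent.P134.R2.H561.Euc

/-! P134Y: De Giorgi's conjecture in dimensions `n ≤ m + 4` from the blocks `RIG` and `SAV`. -/

set_option linter.all false

open MeasureTheory Filter Topology
open scoped InnerProductSpace Laplacian

namespace Vale.Agent.P134Y

open Vale.Agent.P134 Vale.Agent.P134.SM
open Vale.Agent.P134.H491 (HypN)
open Vale.Agent.P134.H787 (rot LI)
open Vale.Agent.P134.H765 (res)
open Vale.Agent.P134.R2.H561

variable {n m : ℕ}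

/-- restriction of a cylindrical solution of the class `SH`. -/
theorem sh_res {U : (Fin (n + 1) → ℝ) → ℝ} (hU : SH U)
    (hinv : ∀ x (t : ℝ), U (x + t • Pi.single (Fin.last n) 1) = U x) : SH (res U) := by
  refine ⟨H765.Sol.res hU.1 hinv, ?_⟩
  have dU : Differentiable ℝ U := hU.1.c2.differentiable (by norm_num)
  obtain ⟨-, C, hC⟩ := hU
  refine ⟨C, HypN.reduce (p := Fin.last n) hC (fun s y => ?_)
    (((dU.continuous.pow 2).const_mul 3).sub continuous_const)⟩
  have e : H160.ins (Fin.last n) s y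
      = (Fin.snoc y 0 : Fin (n + 1) → ℝ) + s • Pi.single (Fin.last n) 1 := by
    unfold H160.ins
    rw [Fin.insertNth_last']
    funext k
    refine Fin.lastCases ?_ (fun k => ?_) k
    · simp
    · simp [Pi.single_apply, (Fin.castSucc_lt_last k).ne]
  show 3 * U (H160.ins (Fin.last n) s y) ^ 2 - 1 = 3 * res U y ^ 2 - 1
  rw [e, hinv]
  rfl

/-- cylinders over `ℝⁿ`. -/
theorem cyl (hR : RIG n) {U : (Fin (n + 1) → ℝ) → ℝ} (hU : SH U)
    (hinv : ∀ x (t : ℝ), U (x + t • Pi.single (Fin.last n) 1) = U x) (x : Fin (n + 1) → ℝ) :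
    defi U x = 0 := by
  rw [defi_res hU.1 hinv]
  exact hR.sh (sh_res hU hinv) _

/-- cylinders in an arbitrary unit direction. -/
theorem cyl_dir (hR : RIG n) {U : (Fin (n + 1) → ℝ) → ℝ} (hU : SH U) {a : Fin (n + 1) → ℝ}
    (ha : ∑ i, a i ^ 2 = 1) (h0 : ∀ x, dd a U x = 0) (x : Fin (n + 1) → ℝ) : defi U x = 0 := by
  have dU : Differentiable ℝ U := hU.1.c2.differentiable (by norm_num)
  obtain ⟨L, hL⟩ := H787.exists_rot (Fin.last n) ha
  have hv := hU.rot L
  have h1 : ∀ y, dd (Pi.single (Fin.last n) 1) (fun x => U (rot L x)) y = 0 := fun y => by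
    rw [H787.dd_comp_rot (dU _), hL, h0]
  have h2 := cyl hR hv (fun y t => inv_of_dd_zero hv.1 h1 y t) (rot L.symm x)
  rwa [H787.defi_comp_rot dU L, H787.rot_rot_symm] at h2

/-- the profiles of a monotone solution on `ℝⁿ⁺¹` have no deficit. -/
theorem prof (hR : RIG n) {u U : (Fin (n + 1) → ℝ) → ℝ} (hu : Sol u)
    (hq : ∀ x, 0 < pd (Fin.last n) u x) (hU : Sol U)
    (hlim : ∀ x, Tendsto (fun t : ℝ => u (x + t • Pi.single (Fin.last n) 1)) atTop (𝓝 (U x)))
    (x : Fin (n + 1) → ℝ) : defi U x = 0 := by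
  refine cyl hR ⟨hU, _, HypN.of_tendsto (L := atTop)
    (F := fun (t : ℝ) x => u (x + t • Pi.single (Fin.last n) 1)) (fun t => hu.shift _) hU hlim
    (fun t => (HypN.of_mono hu hq).translate (t • Pi.single (Fin.last n) 1))⟩ (fun x t => ?_) x
  have h4 : Tendsto (fun s : ℝ => u (x + (s + t) • Pi.single (Fin.last n) 1)) atTop (𝓝 (U x)) :=
    (hlim x).comp (tendsto_atTop_add_const_right atTop t tendsto_id)
  have h5 := hlim (x + t • Pi.single (Fin.last n) 1)
  have e : (fun s : ℝ => u (x + t • Pi.single (Fin.last n) 1 + s • Pi.single (Fin.last n) 1))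
      = fun s : ℝ => u (x + (s + t) • Pi.single (Fin.last n) 1) := by
    funext s
    congr 1
    rw [add_smul]; abel
  rw [e] at h5
  exact tendsto_nhds_unique h5 h4

theorem top_last (hR : RIG (m + 3)) (hS : SAV m) {u : (Fin (m + 4) → ℝ) → ℝ} (hu : Sol u)
    (hq : ∀ x, 0 < pd (Fin.last (m + 3)) u x) (x : Fin (m + 4) → ℝ) : defi u x = 0 := by
  have hv : Sol (fun x => - u (-x)) := H765.Sol.odd hu
  have hvq : ∀ x, 0 < pd (Fin.last (m + 3)) (fun x => - u (-x)) x := fun x => by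
    rw [H765.pd_odd hu]; exact hq _
  rcases struct' (q := Fin.last (m + 3)) (fun U hU hlim => prof hR hu hq hU hlim)
    (fun U hU hlim => prof hR hv hvq hU hlim) hu hq with ⟨ht, hb⟩ | h
  · exact hS _ u ⟨hu, hq, ht, hb⟩ x
  · exact h x

theorem top_dir (hR : RIG (m + 3)) (hS : SAV m) {u : (Fin (m + 4) → ℝ) → ℝ} (hu : Sol u)
    {e : Fin (m + 4) → ℝ} (h : ∀ x, 0 < dd e u x) (x : Fin (m + 4) → ℝ) : defi u x = 0 := by
  have du : Differentiable ℝ u := hu.c2.differentiable (by norm_num)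
  have he : e ≠ 0 := by
    rintro rfl
    have := h 0
    simp [dd] at this
  have hpos := sum_sq_pos he
  obtain ⟨β, hβ⟩ : ∃ β : ℝ, β = √(∑ k, e k ^ 2) := ⟨_, rfl⟩
  have hβ0 : 0 < β := by rw [hβ]; exact Real.sqrt_pos.mpr hpos
  have hβ2 : β ^ 2 = ∑ k, e k ^ 2 := by rw [hβ]; exact Real.sq_sqrt hpos.le
  obtain ⟨L, hL⟩ := H787.exists_rot (Fin.last (m + 3)) (a := fun k => β⁻¹ * e k) (by
    simp_rw [mul_pow]
    rw [← Finset.mul_sum, ← hβ2]; field_simp)
  have hvp : ∀ y, 0 < pd (Fin.last (m + 3)) (fun x => u (rot L x)) y := by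
    intro y
    rw [← single_dd, H787.dd_comp_rot (du _), hL]
    have e1 : dd (fun k => β⁻¹ * e k) u (rot L y) = β⁻¹ * dd e u (rot L y) := by
      unfold dd
      rw [Finset.mul_sum]
      exact Finset.sum_congr rfl fun i _ => by ring
    rw [e1]
    exact mul_pos (inv_pos.mpr hβ0) (h _)
  have h2 := top_last hR hS (H787.Sol.rot hu L) hvp (rot L.symm x)
  rwa [H787.defi_comp_rot du L, H787.rot_rot_symm] at h2

/-- De Giorgi's conjecture in dimensions `n ≤ m + 4` from the two blocks. -/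
theorem top (m : ℕ) (hR : RIG (m + 3)) (hS : SAV m) (n : ℕ) (hn : n ≤ m + 4)
    (u : EuclideanSpace ℝ (Fin n) → ℝ) (hu : ContDiff ℝ 2 u)
    (heq : ∀ x, Δ u x = u x ^ 3 - u x) (hb : ∃ M : ℝ, ∀ x, |u x| ≤ M)
    (a : EuclideanSpace ℝ (Fin n)) (ha : ∀ x, 0 < fderiv ℝ u x a) :
    ∃ (e : EuclideanSpace ℝ (Fin n)) (c : ℝ), ‖e‖ = 1 ∧ 0 < ⟪e, a⟫_ℝ ∧
      ∀ x, u x = Real.tanh ((⟪e, x⟫_ℝ - c) / √2) := by
  have hb1 := H765.abs_le_one_of_bdd hu heq hb
  have du : Differentiable ℝ u := hu.differentiable (by norm_num)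
  obtain ⟨e, c, he, hec⟩ := H134.lift_down hn (fun v hv hveq hvb b hbm => by
    have dv : Differentiable ℝ v := hv.differentiable (by norm_num)
    have hsol := sol_of_euclidean hv hveq hvb (EuclideanSpace.basisFun (Fin (m + 4)) ℝ) 0
    have hD := top_dir hR hS (e := fun i => b i) hsol fun y => by rw [dd_std dv]; exact hbm _
    rcases tanh_of_defi hsol hD with h | h | h
    · exfalso
      have h1 : v = fun _ => 1 := funext h
      have h4 := hbm 0
      rw [h1] at h4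
      simp at h4
    · exfalso
      have h1 : v = fun _ => -1 := funext h
      have h4 := hbm 0
      rw [h1] at h4
      simp at h4
    · exact h) hu heq hb1 ha
  exact ⟨e, c, he, inner_pos_of du hec (fun x => (ha x).le) ⟨0, ha 0⟩, hec⟩

/-- stable solutions, Euclidean form. -/
theorem top_stable (hR : RIG n) (u : EuclideanSpace ℝ (Fin n) → ℝ) (hu : ContDiff ℝ 2 u)
    (heq : ∀ x, Δ u x = u x ^ 3 - u x) (hb : ∃ M : ℝ, ∀ x, |u x| ≤ M) (hs : H765.StableE u) :
    (∀ x, u x = 1) ∨ (∀ x, u x = -1) ∨ ∃ (e : EuclideanSpace ℝ (Fin n)) (c : ℝ), ‖e‖ = 1 ∧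
      ∀ x, u x = Real.tanh ((⟪e, x⟫_ℝ - c) / √2) := by
  have hsol := sol_of_euclidean hu heq (H765.abs_le_one_of_bdd hu heq hb)
    (EuclideanSpace.basisFun (Fin n) ℝ) 0
  exact tanh_of_defi hsol (hR.sh ⟨hsol, _,
    H765.hypN_of_stable hsol (H765.stabV_of_stableE hs)⟩)

end Vale.Agent.P134Y
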